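import Mathlib

/-! Finite product probability toolkit: expectation over `ι → κ` with i.i.d. coordinates. -/

set_option autoImplicit false

namespace Crest.Agent.PP

open Finset

/-- a probability vector -/
structure IsProb {κ : Type*} [Fintype κ] (w : κ → ℝ) : Prop where
  nonneg : ∀ k, 0 ≤ w k
  sum_one : ∑ k, w k = 1

/-- product weight -/
noncomputable def wt {ι κ : Type*} [Fintype ι] (w : κ → ℝ) (ω : ι → κ) : ℝ := ∏ i, w (ω i)

/-- expectation under the product weight -/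
noncomputable def Ex {ι κ : Type*} [Fintype ι] [DecidableEq ι] [Fintype κ] (w : κ → ℝ)
    (F : (ι → κ) → ℝ) : ℝ := ∑ ω, wt w ω * F ω

open Classical in
/-- indicator of a proposition -/
noncomputable def ind (P : Prop) : ℝ := if P then 1 else 0

lemma ind_nonneg (P : Prop) : 0 ≤ ind P := by unfold ind; split_ifs <;> norm_num
lemma ind_le_one (P : Prop) : ind P ≤ 1 := by unfold ind; split_ifs <;> norm_num
lemma ind_pos {P : Prop} (h : P) : ind P = 1 := by unfold ind; simp [h]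
lemma ind_neg {P : Prop} (h : ¬ P) : ind P = 0 := by unfold ind; simp [h]
lemma ind_mono {P Q : Prop} (h : P → Q) : ind P ≤ ind Q := by
  by_cases hP : P
  · rw [ind_pos hP, ind_pos (h hP)]
  · rw [ind_neg hP]; exact ind_nonneg _
lemma ind_congr {P Q : Prop} (h : P ↔ Q) : ind P = ind Q := by rw [propext h]
lemma ind_not (P : Prop) : ind (¬ P) = 1 - ind P := by
  by_cases hP : P
  · rw [ind_pos hP, ind_neg (not_not.2 hP)]; norm_num
  · rw [ind_neg hP, ind_pos hP]; norm_num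
lemma ind_and (P Q : Prop) : ind (P ∧ Q) = ind P * ind Q := by
  by_cases hP : P <;> by_cases hQ : Q <;> simp [ind, hP, hQ]
lemma ind_or_le (P Q : Prop) : ind (P ∨ Q) ≤ ind P + ind Q := by
  by_cases hP : P <;> by_cases hQ : Q <;> simp [ind, hP, hQ]
lemma ind_exists_le {β : Type*} (s : Finset β) (P : β → Prop) :
    ind (∃ b ∈ s, P b) ≤ ∑ b ∈ s, ind (P b) := by
  by_cases h : ∃ b ∈ s, P b
  · obtain ⟨b, hb, hP⟩ := h
    rw [ind_pos ⟨b, hb, hP⟩, ← ind_pos hP]
    exact single_le_sum (f := fun b => ind (P b)) (fun _ _ => ind_nonneg _) hb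
  · rw [ind_neg h]; exact sum_nonneg fun _ _ => ind_nonneg _
lemma ind_forall {β : Type*} (s : Finset β) (P : β → Prop) :
    ind (∀ b ∈ s, P b) = ∏ b ∈ s, ind (P b) := by
  by_cases h : ∀ b ∈ s, P b
  · rw [ind_pos h, prod_eq_one fun b hb => ind_pos (h b hb)]
  · rw [ind_neg h]; push Not at h
    obtain ⟨b, hb, hP⟩ := h
    exact (prod_eq_zero hb (ind_neg hP)).symm
lemma card_filter_eq_sum_ind {β : Type*} (s : Finset β) (P : β → Prop) [DecidablePred P] :
    ((s.filter P).card : ℝ) = ∑ b ∈ s, ind (P b) := by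
  rw [card_filter]; push_cast
  refine sum_congr rfl fun b _ => ?_
  by_cases h : P b <;> simp [ind, h]

section basic
variable {ι κ : Type*} [Fintype ι] [DecidableEq ι] [Fintype κ] {w : κ → ℝ}

omit [DecidableEq ι] in
lemma wt_nonneg (hw : IsProb w) (ω : ι → κ) : 0 ≤ wt w ω :=
  prod_nonneg fun _ _ => hw.nonneg _

lemma Ex_prod (w : κ → ℝ) (f : ι → κ → ℝ) :
    Ex w (fun ω => ∏ i, f i (ω i)) = ∏ i, ∑ k, w k * f i k := by
  unfold Ex wt
  rw [Finset.prod_univ_sum]
  simp only [Fintype.piFinset_univ, prod_mul_distrib]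

lemma sum_wt (hw : IsProb w) : ∑ ω : ι → κ, wt w ω = 1 := by
  have := Ex_prod (ι := ι) w (fun _ _ => 1)
  simpa [Ex, hw.sum_one] using this

lemma isProb_wt (hw : IsProb w) : IsProb (wt w : (ι → κ) → ℝ) := ⟨wt_nonneg hw, sum_wt hw⟩

lemma Ex_const (hw : IsProb w) (c : ℝ) : Ex w (fun _ : ι → κ => c) = c := by
  unfold Ex; rw [← sum_mul, sum_wt hw, one_mul]

lemma Ex_mono (hw : IsProb w) {F G : (ι → κ) → ℝ} (h : ∀ ω, F ω ≤ G ω) : Ex w F ≤ Ex w G :=
  sum_le_sum fun ω _ => mul_le_mul_of_nonneg_left (h ω) (wt_nonneg hw ω)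

lemma Ex_nonneg (hw : IsProb w) {F : (ι → κ) → ℝ} (h : ∀ ω, 0 ≤ F ω) : 0 ≤ Ex w F :=
  sum_nonneg fun ω _ => mul_nonneg (wt_nonneg hw ω) (h ω)

lemma Ex_le_const (hw : IsProb w) {F : (ι → κ) → ℝ} {c : ℝ} (h : ∀ ω, F ω ≤ c) : Ex w F ≤ c :=
  (Ex_mono hw h).trans (Ex_const hw c).le

lemma const_le_Ex (hw : IsProb w) {F : (ι → κ) → ℝ} {c : ℝ} (h : ∀ ω, c ≤ F ω) : c ≤ Ex w F :=
  (Ex_const hw c).ge.trans (Ex_mono hw h)

lemma Ex_add (w : κ → ℝ) (F G : (ι → κ) → ℝ) :
    Ex w (fun ω => F ω + G ω) = Ex w F + Ex w G := by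
  unfold Ex; simp only [mul_add, sum_add_distrib]

lemma Ex_sub (w : κ → ℝ) (F G : (ι → κ) → ℝ) :
    Ex w (fun ω => F ω - G ω) = Ex w F - Ex w G := by
  unfold Ex; simp only [mul_sub, sum_sub_distrib]

lemma Ex_const_mul (w : κ → ℝ) (c : ℝ) (F : (ι → κ) → ℝ) :
    Ex w (fun ω => c * F ω) = c * Ex w F := by
  unfold Ex; rw [mul_sum]; exact sum_congr rfl fun _ _ => by ring

lemma Ex_mul_const (w : κ → ℝ) (c : ℝ) (F : (ι → κ) → ℝ) :
    Ex w (fun ω => F ω * c) = Ex w F * c := by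
  unfold Ex; rw [sum_mul]; exact sum_congr rfl fun _ _ => by ring

lemma Ex_sum {β : Type*} (w : κ → ℝ) (s : Finset β) (F : β → (ι → κ) → ℝ) :
    Ex w (fun ω => ∑ b ∈ s, F b ω) = ∑ b ∈ s, Ex w (F b) := by
  unfold Ex; simp only [mul_sum]; exact sum_comm

lemma Ex_ind_not (hw : IsProb w) (P : (ι → κ) → Prop) :
    Ex w (fun ω => ind (¬ P ω)) = 1 - Ex w (fun ω => ind (P ω)) := by
  simp only [ind_not]; rw [Ex_sub, Ex_const hw]

lemma Ex_ind_le_one (hw : IsProb w) (P : (ι → κ) → Prop) : Ex w (fun ω => ind (P ω)) ≤ 1 :=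
  Ex_le_const hw fun _ => ind_le_one _

lemma Ex_ind_nonneg (hw : IsProb w) (P : (ι → κ) → Prop) : 0 ≤ Ex w (fun ω => ind (P ω)) :=
  Ex_nonneg hw fun _ => ind_nonneg _

lemma Ex_ind_mono (hw : IsProb w) {P Q : (ι → κ) → Prop} (h : ∀ ω, P ω → Q ω) :
    Ex w (fun ω => ind (P ω)) ≤ Ex w (fun ω => ind (Q ω)) :=
  Ex_mono hw fun ω => ind_mono (h ω)

lemma Ex_union (hw : IsProb w) {β : Type*} (s : Finset β) (P : β → (ι → κ) → Prop) :
    Ex w (fun ω => ind (∃ b ∈ s, P b ω)) ≤ ∑ b ∈ s, Ex w (fun ω => ind (P b ω)) := by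
  rw [← Ex_sum]; exact Ex_mono hw fun ω => ind_exists_le s _

lemma Ex_or (hw : IsProb w) (P Q : (ι → κ) → Prop) :
    Ex w (fun ω => ind (P ω ∨ Q ω)) ≤ Ex w (fun ω => ind (P ω)) + Ex w (fun ω => ind (Q ω)) := by
  rw [← Ex_add]; exact Ex_mono hw fun ω => ind_or_le _ _

lemma exists_of_Ex_lt_one (hw : IsProb w) (P : (ι → κ) → Prop)
    (h : Ex w (fun ω => ind (P ω)) < 1) : ∃ ω, ¬ P ω := by
  by_contra hc; push Not at hc
  have : Ex w (fun ω => ind (P ω)) = 1 := by
    simp only [ind_pos (hc _)]; exact Ex_const hw 1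
  linarith

/-- Markov -/
lemma Ex_markov (hw : IsProb w) {F : (ι → κ) → ℝ} (hF : ∀ ω, 0 ≤ F ω) {a : ℝ} (ha : 0 < a) :
    Ex w (fun ω => ind (a ≤ F ω)) ≤ Ex w F / a := by
  rw [le_div_iff₀ ha, ← Ex_mul_const]
  refine Ex_mono hw fun ω => ?_
  by_cases h : a ≤ F ω
  · rw [ind_pos h, one_mul]; exact h
  · rw [ind_neg h, zero_mul]; exact hF ω

lemma Ex_prod_on (hw : IsProb w) (S : Finset ι) (f : ι → κ → ℝ) :
    Ex w (fun ω => ∏ i ∈ S, f i (ω i)) = ∏ i ∈ S, ∑ k, w k * f i k := by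
  have h := Ex_prod w (fun i k => if i ∈ S then f i k else 1)
  have h1 : ∀ ω : ι → κ, ∏ i, (if i ∈ S then f i (ω i) else 1) = ∏ i ∈ S, f i (ω i) := by
    intro ω; rw [prod_ite_mem, univ_inter]
  simp only [h1] at h
  rw [h, ← univ_inter S, ← prod_ite_mem, univ_inter]
  refine prod_congr rfl fun i _ => ?_
  split_ifs
  · rfl
  · simp [hw.sum_one]

lemma Ex_comm {ι' κ' : Type*} [Fintype ι'] [DecidableEq ι'] [Fintype κ'] (w : κ → ℝ) (w' : κ' → ℝ)
    (F : (ι → κ) → (ι' → κ') → ℝ) :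
    Ex w (fun ω => Ex w' (F ω)) = Ex w' (fun ω' => Ex w (fun ω => F ω ω')) := by
  unfold Ex; simp only [mul_sum]; rw [sum_comm]
  exact sum_congr rfl fun _ _ => sum_congr rfl fun _ _ => by ring

lemma Ex_equiv {ι' : Type*} [Fintype ι'] [DecidableEq ι'] (w : κ → ℝ) (e : ι' ≃ ι)
    (F : (ι' → κ) → ℝ) : Ex w (fun ω : ι → κ => F (ω ∘ e)) = Ex w F := by
  unfold Ex
  refine Fintype.sum_equiv (e.arrowCongr (Equiv.refl κ)).symm _ _ fun ω => ?_
  have : (e.arrowCongr (Equiv.refl κ)).symm ω = ω ∘ e := by ext; simp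
  rw [this]; congr 1
  unfold wt
  exact (Fintype.prod_equiv e _ _ fun _ => rfl).symm

lemma Ex_sumType {ι' : Type*} [Fintype ι'] [DecidableEq ι'] (w : κ → ℝ)
    (F : (ι ⊕ ι' → κ) → ℝ) :
    Ex w F = Ex w (fun a : ι → κ => Ex w (fun b : ι' → κ => F (Sum.elim a b))) := by
  unfold Ex
  simp only [mul_sum]
  rw [← Fintype.sum_prod_type']
  refine Fintype.sum_equiv (Equiv.sumArrowEquivProdArrow ι ι' κ) _ _ fun ω => ?_
  have h : Sum.elim ((Equiv.sumArrowEquivProdArrow ι ι' κ) ω).1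
      ((Equiv.sumArrowEquivProdArrow ι ι' κ) ω).2 = ω := by
    ext x; cases x <;> simp
  rw [h]
  unfold wt
  rw [Fintype.prod_sum_type]
  simp [mul_assoc]

/-- marginal on an injective family of coordinates -/
lemma Ex_inj {ι' : Type*} [Fintype ι'] [DecidableEq ι'] (hw : IsProb w) (e : ι' → ι)
    (he : Function.Injective e) (F : (ι' → κ) → ℝ) :
    Ex w (fun ω : ι → κ => F (ω ∘ e)) = Ex w F := by
  classical
  let E : ι' ⊕ {x // x ∉ Set.range e} ≃ ι :=
    (Equiv.sumCongr (Equiv.ofInjective e he) (Equiv.refl _)).trans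
      (Equiv.Set.sumCompl (Set.range e))
  have h1 := Ex_equiv w E (fun ω => F (ω ∘ Sum.inl))
  have h2 : ∀ ω : ι → κ, (ω ∘ E) ∘ Sum.inl = ω ∘ e := by
    intro ω; ext x; rfl
  simp only [h2] at h1
  rw [h1, Ex_sumType]
  congr 1; ext a
  have : ∀ b : {x // x ∉ Set.range e} → κ, Sum.elim a b ∘ Sum.inl = a := fun b => rfl
  simp only [this]
  exact Ex_const hw _

lemma Ex_curry {ι' : Type*} [Fintype ι'] [DecidableEq ι'] (w : κ → ℝ)
    (F : (ι → ι' → κ) → ℝ) :
    Ex w (fun ω : ι × ι' → κ => F (fun a b => ω (a, b))) = Ex (wt w : (ι' → κ) → ℝ) F := by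
  unfold Ex
  refine Fintype.sum_equiv (Equiv.curry ι ι' κ) _ _ fun ω => ?_
  congr 1
  unfold wt
  rw [Fintype.prod_prod_type]; rfl

/-- push-forward of the coordinate law -/
lemma Ex_push {κ' : Type*} [Fintype κ'] [DecidableEq κ'] (w : κ → ℝ) (h : κ → κ') (w' : κ' → ℝ)
    (hw' : ∀ k', w' k' = ∑ k, w k * (if h k = k' then 1 else 0)) (F : (ι → κ') → ℝ) :
    Ex w (fun ω : ι → κ => F (h ∘ ω)) = Ex w' F := by
  have key : ∀ ω' : ι → κ', wt w' ω' = Ex w (fun ω : ι → κ => if h ∘ ω = ω' then 1 else 0) := by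
    intro ω'
    have := Ex_prod w (fun i k => if h k = ω' i then (1:ℝ) else 0)
    unfold wt
    simp only [hw']
    rw [← this]
    congr 1; ext ω
    by_cases hh : h ∘ ω = ω'
    · simp [← hh]
    · rw [if_neg hh]
      obtain ⟨i, hi⟩ := Function.ne_iff.1 hh
      exact prod_eq_zero (mem_univ i) (if_neg hi)
  conv_rhs => unfold Ex
  simp only [key, ← Ex_mul_const, ← Ex_sum]
  congr 1; ext ω
  simp

lemma Ex_pair {κ' : Type*} [Fintype κ'] (w : κ → ℝ) (w' : κ' → ℝ)
    (F : (ι → κ) → (ι → κ') → ℝ) :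
    Ex (fun k : κ × κ' => w k.1 * w' k.2)
      (fun ω : ι → κ × κ' => F (fun i => (ω i).1) (fun i => (ω i).2)) =
      Ex w (fun a => Ex w' (F a)) := by
  unfold Ex
  simp only [mul_sum]
  rw [← Fintype.sum_prod_type']
  refine Fintype.sum_equiv (Equiv.arrowProdEquivProdArrow ι (fun _ => κ) (fun _ => κ')) _ _
    fun ω => ?_
  unfold wt
  rw [prod_mul_distrib, mul_assoc]; rfl

/-- Chernoff, upper tail -/
lemma chernoff_upper (hw : IsProb w) (S : Finset ι) (A : ι → κ → Prop) (a : ℝ) :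
    Ex w (fun ω => ind (a ≤ ∑ i ∈ S, ind (A i (ω i)))) ≤
      Real.exp (2 * ∑ i ∈ S, (∑ k, w k * ind (A i k)) - a) := by
  have h1 : ∀ ω : ι → κ, ind (a ≤ ∑ i ∈ S, ind (A i (ω i))) ≤
      Real.exp (-a) * ∏ i ∈ S, Real.exp (ind (A i (ω i))) := by
    intro ω
    rw [← Real.exp_sum, ← Real.exp_add]
    by_cases h : a ≤ ∑ i ∈ S, ind (A i (ω i))
    · rw [ind_pos h]; exact Real.one_le_exp (by linarith)
    · rw [ind_neg h]; exact (Real.exp_pos _).le
  refine (Ex_mono hw h1).trans ?_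
  rw [Ex_const_mul, Ex_prod_on hw S (fun i k => Real.exp (ind (A i k))), sub_eq_neg_add,
    Real.exp_add, mul_sum, Real.exp_sum]
  refine mul_le_mul_of_nonneg_left (prod_le_prod (fun i _ => sum_nonneg fun k _ =>
    mul_nonneg (hw.nonneg k) (Real.exp_pos _).le) fun i _ => ?_) (Real.exp_pos _).le
  refine le_trans ?_ (Real.add_one_le_exp _)
  rw [← hw.sum_one, mul_sum, ← sum_add_distrib]
  refine sum_le_sum fun k _ => ?_
  have hk := hw.nonneg k
  by_cases h : A i k
  · rw [ind_pos h]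
    have := Real.exp_one_lt_d9
    nlinarith
  · rw [ind_neg h]; simp

/-- Chernoff, lower tail -/
lemma chernoff_lower (hw : IsProb w) (S : Finset ι) (A : ι → κ → Prop) (a : ℝ) :
    Ex w (fun ω => ind (∑ i ∈ S, ind (A i (ω i)) ≤ a)) ≤
      Real.exp (a - (∑ i ∈ S, (∑ k, w k * ind (A i k))) / 2) := by
  have h1 : ∀ ω : ι → κ, ind (∑ i ∈ S, ind (A i (ω i)) ≤ a) ≤
      Real.exp a * ∏ i ∈ S, Real.exp (- ind (A i (ω i))) := by
    intro ω
    rw [← Real.exp_sum, ← Real.exp_add, sum_neg_distrib]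
    by_cases h : ∑ i ∈ S, ind (A i (ω i)) ≤ a
    · rw [ind_pos h]; exact Real.one_le_exp (by linarith)
    · rw [ind_neg h]; exact (Real.exp_pos _).le
  refine (Ex_mono hw h1).trans ?_
  rw [Ex_const_mul, Ex_prod_on hw S (fun i k => Real.exp (- ind (A i k))), sub_eq_add_neg,
    Real.exp_add, sum_div, ← sum_neg_distrib, Real.exp_sum]
  refine mul_le_mul_of_nonneg_left (prod_le_prod (fun i _ => sum_nonneg fun k _ =>
    mul_nonneg (hw.nonneg k) (Real.exp_pos _).le) fun i _ => ?_) (Real.exp_pos _).le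
  refine le_trans ?_ (Real.add_one_le_exp _)
  rw [← hw.sum_one, sum_div, ← sum_neg_distrib, ← sum_add_distrib]
  refine sum_le_sum fun k _ => ?_
  have hk := hw.nonneg k
  by_cases h : A i k
  · rw [ind_pos h]
    have := Real.exp_neg_one_lt_d9
    nlinarith
  · rw [ind_neg h]; simp

end basic

/-! Bernoulli coordinates -/

/-- Bernoulli weight -/
noncomputable def bw (p : ℝ) : Bool → ℝ := fun b => if b then p else 1 - p

lemma isProb_bw {p : ℝ} (h0 : 0 ≤ p) (h1 : p ≤ 1) : IsProb (bw p) :=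
  ⟨fun b => by cases b <;> simp [bw, h0, h1], by simp [bw]⟩

section bern
variable {ι : Type*} [Fintype ι] [DecidableEq ι]

/-- union of two independent Bernoulli sets -/
lemma Ex_bw_or (p q : ℝ) (F : (ι → Bool) → ℝ) :
    Ex (bw (p + q - p * q)) F = Ex (bw p) (fun a => Ex (bw q) (fun b => F (fun i => a i || b i))) := by
  rw [← Ex_pair (bw p) (bw q) (fun a b => F (fun i => a i || b i))]
  rw [← Ex_push (fun k : Bool × Bool => bw p k.1 * bw q k.2) (fun k => k.1 || k.2)]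
  · rfl
  · intro k'
    cases k' <;> simp [Fintype.sum_prod_type, bw] <;> ring

lemma Ex_bw_mono {p p' : ℝ} (h0 : 0 ≤ p) (hpp : p ≤ p') (h1 : p' ≤ 1) (F : (ι → Bool) → ℝ)
    (hF : ∀ a b : ι → Bool, (∀ i, a i = true → b i = true) → F a ≤ F b) :
    Ex (bw p) F ≤ Ex (bw p') F := by
  rcases eq_or_lt_of_le (hpp.trans h1) with h | h
  · have : p' = p := le_antisymm (h ▸ h1) hpp
    rw [this]
  have hq : p' = p + (p' - p) / (1 - p) - p * ((p' - p) / (1 - p)) := by
    have : 1 - p ≠ 0 := by linarith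
    field_simp; ring
  rw [hq, Ex_bw_or]
  refine Ex_mono (isProb_bw h0 h.le) fun a => const_le_Ex (isProb_bw ?_ ?_) fun b => hF _ _ ?_
  · exact div_nonneg (by linarith) (by linarith)
  · rw [div_le_one (by linarith)]; linarith
  · intro i hi; simp [hi]

/-- conditioning on containing `T` -/
lemma Ex_bw_contains (p : ℝ) (T : Finset ι) (F : (ι → Bool) → ℝ) :
    Ex (bw p) (fun ω => ind (∀ i ∈ T, ω i = true) * F ω) =
      p ^ T.card * Ex (bw p) (fun ω => F (fun i => decide (i ∈ T) || ω i)) := by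
  induction T using Finset.induction_on generalizing F with
  | empty => simp [ind]
  | insert j T hj ih =>
    have key : ∀ G : (ι → Bool) → ℝ, Ex (bw p) (fun ω => ind (ω j = true) * G ω) =
        p * Ex (bw p) (fun ω => G (fun i => decide (i = j) || ω i)) := by
      intro G
      let E : ι ≃ Unit ⊕ {x // x ≠ j} := (Equiv.optionSubtypeNe j).symm.trans
        (Equiv.optionEquivSumPUnit _ |>.trans (Equiv.sumComm _ _))
      have hE : ∀ G' : (ι → Bool) → ℝ, Ex (bw p) G' = Ex (bw p) (fun a : Unit → Bool =>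
          Ex (bw p) (fun b : {x // x ≠ j} → Bool => G' (Sum.elim a b ∘ E))) := by
        intro G'
        rw [← Ex_equiv (bw p) E G', Ex_sumType]
      have hU : ∀ G' : (Unit → Bool) → ℝ, Ex (bw p) G' =
          p * G' (fun _ => true) + (1 - p) * G' (fun _ => false) := by
        intro G'
        unfold Ex wt
        rw [Fintype.sum_equiv (Equiv.funUnique Unit Bool) _
          (fun b => bw p b * G' (fun _ => b)) (fun ω => by
            have : ω = fun _ => ω () := rfl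
            simp)]
        simp [bw]
      have hj1 : ∀ (a : Unit → Bool) (b : {x // x ≠ j} → Bool), (Sum.elim a b ∘ E) j = a () := by
        intro a b; simp [E]
      have hj2 : ∀ (a : Unit → Bool) (b : {x // x ≠ j} → Bool),
          (fun i => decide (i = j) || (Sum.elim a b ∘ E) i) = Sum.elim (fun _ => true) b ∘ E := by
        intro a b; ext i
        by_cases h : i = j
        · subst h; rw [hj1 (fun _ => true)]; simp
        · simp [E, h, Equiv.optionSubtypeNe_symm_of_ne h]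
      rw [hE, hE (fun ω => G _), hU, hU]
      simp only [hj1, hj2]
      simp [ind, Ex]; left; rw [← add_mul]; simp
    have h1 : ∀ ω : ι → Bool, ind (∀ i ∈ insert j T, ω i = true) * F ω =
        ind (∀ i ∈ T, ω i = true) * (ind (ω j = true) * F ω) := by
      intro ω; rw [← mul_assoc, ← ind_and]; congr 1; apply ind_congr; simp; tauto
    simp only [h1]
    rw [ih, card_insert_of_notMem hj, pow_succ, mul_assoc]
    congr 1
    have h2 : ∀ ω : ι → Bool, (decide (j ∈ T) || ω j) = ω j := by intro ω; simp [hj]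
    simp only [h2]
    rw [key (fun ω => F (fun i => decide (i ∈ T) || ω i))]
    congr 2; ext ω; congr 1; ext i
    by_cases h : i = j <;> by_cases h' : i ∈ T <;> simp [h, h']

lemma Ex_bw_subset (p : ℝ) (T : Finset ι) :
    Ex (bw p) (fun ω => ind (∀ i ∈ T, ω i = true)) = p ^ T.card := by
  have := Ex_bw_contains p T (fun _ => 1)
  simp only [mul_one] at this
  rw [this]
  have h := Ex_prod (ι := ι) (bw p) (fun _ _ => 1)
  simp [bw] at h
  simp [h]

end bern

end Crest.Agent.PP
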